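import Vale.Agent.P011UF6.Cub

/-!
Polynomials over the base field without roots at all the places above one place.
-/

open Module

namespace Vale.Agent.P011UF6

open Vale.Agent.P011.H738 (Place)
open Vale.Agent.P011.H271 (norm_alg)
open Vale.Agent.P011.H73 (Sp.add_eq_left)
open Vale.Agent.P011UF

variable {k l : Type} [Field k] [Field l] [Algebra k l] {v w : Place l} {π t n x : k}

/-- There is no root at the places with the same restriction as `v`. -/
def LG (v : Place l) (t n : k) : Prop :=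
  ∀ w : Place l, (rs k w).IsEquiv (rs k v) → Ine w (algebraMap k l t) (algebraMap k l n)

theorem ine_odd {d : k} (hs : ¬Sv w (algebraMap k l π)) (hd : d ≠ 0)
    (hn : rs k w n = rs k w (d ^ 2 * π)) (ht : rs k w t ^ 2 < rs k w n) :
    Ine w (algebraMap k l t) (algebraMap k l n) :=
  ine_E ht fun h => hs (Sv.of_mul (y := algebraMap k l d ^ 2)
    (h.congr (by rw [← map_pow, ← map_mul]; exact hn.symm)) (sv_sq w _)
    (pow_ne_zero _ ((map_ne_zero _).2 hd)))

theorem ine_eis (h : Un (rs k w) π) (hs : ¬Sv w (algebraMap k l π)) (hn : rs k w n = rs k w π)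
    (ht : rs k w t ≤ rs k w π) : Ine w (algebraMap k l t) (algebraMap k l n) :=
  ine_odd hs one_ne_zero (by rw [one_pow, one_mul, hn]) (by
    rw [hn]
    nlinarith [h.lt, (rs k w).pos h.ne, (rs k w).nonneg t])

section odd

variable (h : Un (rs k v) π) (ho : ∀ w, (rs k w).IsEquiv (rs k v) → ¬Sv w (algebraMap k l π))
include h ho

theorem lg_odd {d : k} (hd : d ≠ 0) (hn : rs k v n = rs k v (d ^ 2 * π)) : LG v 0 n :=
  fun w e => ine_odd (ho w e) hd (e.eq_iff_eq.2 hn) (by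
    rw [map_zero, e.eq_iff_eq.2 hn, zero_pow two_ne_zero]
    exact (rs k w).pos (mul_ne_zero (pow_ne_zero _ hd) h.ne))

theorem lg_one : LG v (2 + π) 1 := fun w e => by
  rw [map_add, map_ofNat, map_one]
  refine ine_shift ?_
  rw [← map_neg]
  exact ine_eis (h.tr e) (ho w e) ((rs k w).map_neg π) le_rfl

theorem loc_odd (hx : x ≠ 0) : ∃ t1 t2 n : k, LG v t1 n ∧ LG v t2 (x * n) := by
  obtain ⟨d, hd, h1 | h1⟩ := h.par hx
  · exact ⟨0, 0, π, lg_odd h ho one_ne_zero (by rw [one_pow, one_mul]),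
      lg_odd h ho hd (by rw [map_mul, h1, map_mul])⟩
  · refine ⟨0, 2 + π, x⁻¹, lg_odd h ho (inv_ne_zero (mul_ne_zero hd h.ne)) ?_, ?_⟩
    · rw [map_inv₀, h1, ← map_inv₀]
      congr 1
      field_simp [h.ne]
    · rw [mul_inv_cancel₀ hx]
      exact lg_one h ho

end odd

section even

variable (h3 : finrank k l = 3) (h : Un (rs k v) π) (hs : Sv v (algebraMap k l π))
include h3 h hs

theorem lg_unr (e : (rs k w).IsEquiv (rs k v))
    (hu : Unr w (algebraMap k l t) (algebraMap k l n)) : LG v t n := fun w' e' => by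
  have e1 := e'.trans e.symm
  have h1 : rs k w' t ≤ 1 := e1.le_one_iff.2 hu.1
  have h2 : rs k w' n ≤ 1 := e1.le_one_iff.2 hu.2.1
  refine ine_U ⟨h1, h2, fun y hy => ?_⟩
  obtain ⟨c, hc⟩ := res_one h3 e' (h.sv hs) hy
  have h4 : rs k w' c ≤ 1 := by
    rw [rs_apply, show algebraMap k l c = y + (algebraMap k l c - y) by ring]
    exact (w'.nonarch _ _).trans (max_le hy hc.le)
  have h5 : rs k w' (c ^ 2 - t * c + n) = 1 := e1.eq_one_iff.2 (by
    rw [rs_apply, map_add, map_sub, map_mul, map_pow]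
    exact hu.2.2 _ (e1.le_one_iff.1 h4))
  rw [rs_apply, map_add, map_sub, map_mul, map_pow] at h5
  rw [show y ^ 2 - algebraMap k l t * y + algebraMap k l n = algebraMap k l c ^ 2 -
    algebraMap k l t * algebraMap k l c + algebraMap k l n + (algebraMap k l c - y) *
      (algebraMap k l t - (algebraMap k l c + y)) by ring, Sp.add_eq_left, h5]
  rw [h5, map_mul]
  exact mul_lt_one_of_nonneg_of_lt_one_left (w'.abv.nonneg _) hc
    (P011.H73.Sp.sub_le w' h1 ((w'.nonarch _ _).trans (max_le h4 hy)))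

theorem lg_near (e : (rs k w).IsEquiv (rs k v)) {a b : l} (hu : Unr w a b) :
    ∃ t n : k, w.abv (algebraMap k l t - a) < 1 ∧ w.abv (algebraMap k l n - b) < 1 ∧ LG v t n := by
  obtain ⟨t, ht⟩ := res_one h3 e (h.sv hs) hu.1
  obtain ⟨n, hn⟩ := res_one h3 e (h.sv hs) hu.2.1
  exact ⟨t, n, ht, hn, lg_unr h3 h hs e (Unr.near hu ht hn)⟩

theorem unr_unit (hn : rs k v n = 1) : ∃ t, Unr v (algebraMap k l t) (algebraMap k l n) := by
  obtain ⟨a, ha⟩ := ex_unr (w := v) (n := algebraMap k l n) hn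
  obtain ⟨t, ht⟩ := res_one h3 .rfl (h.sv hs) ha.1
  exact ⟨t, Unr.near ha ht (by rw [sub_self, map_zero]; exact one_pos)⟩

theorem lg_even {d : k} (hd : d ≠ 0) (hn : rs k v n = rs k v (d ^ 2)) : ∃ t, LG v t n := by
  have h1 := pow_ne_zero 2 hd
  obtain ⟨t, ht⟩ := unr_unit h3 h hs (n := n / d ^ 2) (by
    rw [map_div₀, hn, div_self ((rs k v).ne_zero h1)])
  refine ⟨d * t, fun w e => ?_⟩
  have h2 := ine_scale (lg_unr h3 h hs .rfl ht w e) ((map_ne_zero (algebraMap k l)).2 hd)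
  rwa [← map_mul, ← map_pow, ← map_mul, mul_div_cancel₀ _ h1] at h2

theorem lg_eis (hn : rs k v n = rs k v π) (ht : rs k v t ≤ rs k v π)
    (hv : Ine v (algebraMap k l t) (algebraMap k l n)) : LG v t n := fun w e => by
  by_cases h1 : Sv w (algebraMap k l π)
  · obtain ⟨y, hy⟩ := mx_odd (h.sv hs)
    obtain ⟨z, hz⟩ := mx_odd ((h.tr e).sv h1)
    obtain rfl := two h3 e hy hz
    exact hv
  · exact ine_eis (h.tr e) h1 (e.eq_iff_eq.2 hn) (e.le_iff_le.2 ht)

theorem not_four {a : v.comp} (ha : ‖a‖ ^ 4 = rs k v π) : False := by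
  obtain ⟨y, hy⟩ := val_comp v a
  have h0 := (rs k v).pos h.ne
  have h1 := h.lt
  have h2 : y ≠ 0 := by
    rintro rfl
    rw [← hy, map_zero] at ha
    linarith
  refine tower h3 (h.sv hs) (sv_sq v y) (mx_of (pow_ne_zero _ h2) fun c hc => ?_)
  rw [map_pow, hy] at hc
  have h4 : ‖a‖ ^ 2 < 1 := by
    by_contra h4
    nlinarith
  have h5 := h.le (hc.trans_lt h4)
  have h6 : 0 < ‖a‖ ^ 2 := by rw [← hy]; exact pow_pos (v.abv.pos h2) 2
  nlinarith

theorem ex_eis : ∃ t n : k, rs k v n = rs k v π ∧ LG v t n := by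
  have h0 := (rs k v).pos h.ne
  have h1 := h.lt
  have hπ : ‖algebraMap l v.comp (algebraMap k l π)‖ = rs k v π := norm_alg v _
  by_cases ha : Ine v (algebraMap k l 0) (algebraMap k l (-π))
  · exact ⟨0, -π, (rs k v).map_neg π, lg_eis h3 h hs ((rs k v).map_neg π) (by simp) ha⟩
  simp only [Ine, not_forall, not_not, map_zero, map_neg] at ha
  obtain ⟨ρ, hρ⟩ := ha
  have h4 : ‖ρ‖ ^ 2 = rs k v π := by
    rw [← norm_pow, ← hπ]
    congr 1
    linear_combination hρ
  have h5 : 0 < ‖ρ‖ := norm_pos_iff.2 fun e => by simp [e] at h4; linarith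
  have h6 : ‖(2 : v.comp)‖ = rs k v 2 := by
    rw [rs_apply, ← norm_alg, map_ofNat, map_ofNat]
  by_cases h2 : rs k v 2 < 1
  · refine ⟨π, -π, (rs k v).map_neg π, lg_eis h3 h hs ((rs k v).map_neg π) le_rfl fun σ hσ => ?_⟩
    rw [map_neg, map_neg] at hσ
    generalize algebraMap l v.comp (algebraMap k l π) = p at hπ hρ hσ
    have h7 : ‖σ‖ ^ 2 = rs k v π * ‖1 + σ‖ := by
      rw [← norm_pow, ← hπ, ← norm_mul]
      congr 1
      linear_combination hσ
    have h8 : ‖σ‖ < 1 := by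
      by_contra h8
      have h9 := (IsUltrametricDist.norm_add_le_max 1 σ).trans
        (max_le (norm_one.trans_le (not_lt.1 h8)) le_rfl)
      nlinarith
    rw [IsUltrametricDist.norm_add_eq_max_of_norm_ne_norm (by rw [norm_one]; exact h8.ne'),
      norm_one, max_eq_left h8.le, mul_one, ← h4] at h7
    have h9 : ‖σ‖ = ‖ρ‖ := (pow_left_inj₀ (norm_nonneg _) h5.le two_ne_zero).1 h7
    have h10 : ‖σ - ρ‖ * ‖σ - ρ + 2 * ρ‖ = ‖ρ‖ ^ 3 := by
      rw [← norm_mul, show (σ - ρ) * (σ - ρ + 2 * ρ) = p * σ by linear_combination hσ - hρ,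
        norm_mul, hπ, h9, ← h4, ← pow_succ]
    have h11 : ‖2 * ρ‖ ≤ ‖ρ‖ ^ 3 := by
      rw [norm_mul, h6, pow_succ, h4]
      exact mul_le_mul_of_nonneg_right (h.le h2) h5.le
    have h12 : ‖ρ‖ ^ 3 < 1 := pow_lt_one₀ h5.le (h9 ▸ h8) three_ne_zero
    by_cases h13 : ‖σ - ρ‖ ≤ ‖ρ‖ ^ 3
    · have h14 := (IsUltrametricDist.norm_add_le_max (σ - ρ) (2 * ρ)).trans (max_le h13 h11)
      have h15 := mul_le_mul h13 h14 (norm_nonneg _) (by positivity)
      nlinarith [pow_pos h5 3]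
    · have h14 := h11.trans_lt (not_le.1 h13)
      rw [IsUltrametricDist.norm_add_eq_max_of_norm_ne_norm h14.ne', max_eq_left h14.le] at h10
      refine not_four h3 h hs (a := (σ - ρ) / ρ) ?_
      rw [norm_div, div_pow, ← h4, div_eq_iff (by positivity),
        show ‖σ - ρ‖ ^ 4 = (‖σ - ρ‖ * ‖σ - ρ‖) ^ 2 by ring, h10]
      ring
  · have h7 : rs k v 2 = 1 := le_antisymm (by
      rw [rs_apply, map_ofNat, ← one_add_one_eq_two]
      exact (v.nonarch 1 1).trans (by simp)) (not_lt.1 h2)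
    have h8 : (2 : k) ≠ 0 := fun e => by simp [e] at h7
    obtain ⟨t, ht⟩ := unr_unit h3 h hs (n := 1) (map_one _)
    have h9 : rs k v (t ^ 2 - 4) = 1 := by
      have h9 := ht.2.2 (algebraMap k l (t / 2)) (by
        rw [← rs_apply, map_div₀, h7, div_one]; exact ht.1)
      rw [← map_pow, ← map_mul, ← map_sub, ← map_add, ← rs_apply] at h9
      rw [show t ^ 2 - 4 = -(2 * 2 * ((t / 2) ^ 2 - t * (t / 2) + 1)) by field_simp; ring,
        (rs k v).map_neg, map_mul, map_mul, h7, h9, one_mul, one_mul]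
    have h10 : rs k v (-((t ^ 2 - 4) * π)) = rs k v π := by
      rw [(rs k v).map_neg, map_mul, h9, one_mul]
    refine ⟨0, _, h10, lg_eis h3 h hs h10 (by simp) fun σ hσ => ?_⟩
    have h11 : (2 : v.comp) ≠ 0 := norm_pos_iff.1 (by rw [h6, h7]; exact one_pos)
    have h12 := norm_pos_iff.1 h5
    refine ine_U ht ((algebraMap l v.comp (algebraMap k l t) + σ / ρ) / 2) ?_
    simp only [map_zero, map_neg, map_mul, map_sub, map_pow, map_ofNat, map_one] at hσ ⊢
    field_simp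
    linear_combination hσ - (algebraMap l v.comp (algebraMap k l t) ^ 2 - 4) * hρ

theorem loc_even (hx : x ≠ 0) : ∃ t1 t2 n : k, LG v t1 n ∧ LG v t2 (x * n) := by
  obtain ⟨d, hd, h1 | h1⟩ := h.par hx
  · obtain ⟨t1, h2⟩ := lg_even h3 h hs (n := 1) one_ne_zero (by rw [one_pow])
    obtain ⟨t2, h4⟩ := lg_even h3 h hs hd h1
    exact ⟨t1, t2, 1, h2, by rwa [mul_one]⟩
  · obtain ⟨t1, n, h2, h4⟩ := ex_eis h3 h hs
    obtain ⟨t2, h5⟩ := lg_even h3 h hs (n := x * n) (mul_ne_zero hd h.ne) (by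
      rw [map_mul, h1, h2, ← map_mul]
      congr 1
      ring)
    exact ⟨t1, t2, n, h4, h5⟩

end even

theorem LG.tr (e : (rs k v).IsEquiv (rs k w)) (h : LG w t n) : LG v t n :=
  fun u e' => h u (e'.trans e)

/-- The local solution. -/
theorem loc [Infinite k] (h3 : finrank k l = 3) (hx : x ≠ 0) (v : Place l) :
    ∃ t1 t2 n : k, LG v t1 n ∧ LG v t2 (x * n) := by
  obtain ⟨π, h⟩ := ex_un (k := k) v
  by_cases ho : ∀ w, (rs k w).IsEquiv (rs k v) → ¬Sv w (algebraMap k l π)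
  · exact loc_odd h ho hx
  · push Not at ho
    obtain ⟨w, e, hs⟩ := ho
    obtain ⟨t1, t2, n, h1, h2⟩ := loc_even h3 (h.tr e) hs hx
    exact ⟨t1, t2, n, h1.tr e.symm, h2.tr e.symm⟩

end Vale.Agent.P011UF6
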