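import Vale.Agent.P011UF6.Loc

/-!
The places of a cubic extension above one place.
-/

open Module

namespace Vale.Agent.P011UF6

open Vale.Agent.P011.H738 (Place integers maxIdeal)
open Vale.Agent.P011.H271 (norm_alg qq one_lt_qq' qq_pos exists_eq_zpow)
open Vale.Agent.P011.H73 (Sp.add_eq_left)
open Vale.Agent.P011.H73.Sp (sub_lt sub_le approx_fam eq_one_of_near)
open Vale.Agent.P011UF

variable {k l : Type} [Field k] [Field l] [Algebra k l] {w w' : Place l} {y y' : l}

variable (k) in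
/-- The restriction to the base field. -/
def rs (w : Place l) : AbsoluteValue k ℝ := w.abv.comp (algebraMap k l).injective

theorem rs_apply (w : Place l) (c : k) : rs k w c = w.abv (algebraMap k l c) := rfl

theorem rs_nt [Infinite k] (w : Place l) : (rs k w).IsNontrivial := by
  by_contra h
  have h1 : ∀ c : k, c ≠ 0 → rs k w c = 1 := fun c hc => by
    by_contra h2
    exact h ⟨c, hc, h2⟩
  have h2 : ∀ c : k, algebraMap k l c ∈ integers w.abv w.nonarch := fun c => by
    change rs k w c ≤ 1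
    rcases eq_or_ne c 0 with rfl | hc
    · rw [map_zero]; exact zero_le_one
    · exact (h1 c hc).le
  have := w.normalized.1
  obtain ⟨a, b, hab, h3⟩ := Finite.exists_ne_map_eq_of_infinite fun c : k =>
    Ideal.Quotient.mk (maxIdeal w.abv w.nonarch) ⟨_, h2 c⟩
  have h4 : w.abv (algebraMap k l a - algebraMap k l b) < 1 := Ideal.Quotient.eq.1 h3
  rw [← map_sub] at h4
  exact h4.ne (h1 _ (sub_ne_zero.2 hab))

/-- A prime element. -/
structure Un (u : AbsoluteValue k ℝ) (π : k) : Prop where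
  ne : π ≠ 0
  lt : u π < 1
  val : ∀ c : k, c ≠ 0 → ∃ m : ℤ, u c = u (π ^ m)

theorem ex_un [Infinite k] (w : Place l) : ∃ π : k, Un (rs k w) π := by
  let H : AddSubgroup ℤ :=
    { carrier := {m | ∃ c : k, rs k w c = (qq w : ℝ) ^ m}
      add_mem' := fun ⟨c, hc⟩ ⟨d, hd⟩ => ⟨c * d, by rw [map_mul, hc, hd, zpow_add₀ (qq_pos w).ne']⟩
      zero_mem' := ⟨1, by rw [map_one, zpow_zero]⟩
      neg_mem' := fun ⟨c, hc⟩ => ⟨c⁻¹, by rw [map_inv₀, hc, zpow_neg]⟩ }
  obtain ⟨a, ha⟩ := Int.subgroup_cyclic H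
  obtain ⟨p, hp⟩ : a ∈ H := ha ▸ AddSubgroup.subset_closure rfl
  have h0 : p ≠ 0 := fun h => by
    rw [h, map_zero] at hp
    exact (zpow_pos (qq_pos w) a).ne hp
  have h1 : ∀ c : k, c ≠ 0 → ∃ m : ℤ, rs k w c = rs k w (p ^ m) := fun c hc => by
    obtain ⟨m, hm⟩ := exists_eq_zpow w ((map_ne_zero (algebraMap k l)).2 hc)
    have h2 : m ∈ H := ⟨c, hm⟩
    rw [ha, AddSubgroup.mem_closure_singleton] at h2
    obtain ⟨j, rfl⟩ := h2
    exact ⟨j, by rw [map_zpow₀, hp, ← zpow_mul, mul_comm]; exact hm⟩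
  rcases lt_trichotomy (rs k w p) 1 with h | h | h
  · exact ⟨p, h0, h, h1⟩
  · obtain ⟨c, hc, h2⟩ := rs_nt (k := k) w
    obtain ⟨m, hm⟩ := h1 c hc
    rw [map_zpow₀, h, one_zpow] at hm
    exact absurd hm h2
  · refine ⟨p⁻¹, inv_ne_zero h0, by rw [map_inv₀]; exact inv_lt_one_of_one_lt₀ h, fun c hc => ?_⟩
    obtain ⟨m, hm⟩ := h1 c hc
    exact ⟨-m, by rw [inv_zpow', neg_neg, hm]⟩

section

variable {u u' : AbsoluteValue k ℝ} {π c : k}

theorem Un.tr (h : Un u π) (e : u'.IsEquiv u) : Un u' π :=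
  ⟨h.ne, e.lt_one_iff.2 h.lt, fun c hc => (h.val c hc).imp fun _ hm => e.eq_iff_eq.2 hm⟩

theorem Un.le (h : Un u π) (hc : u c < 1) : u c ≤ u π := by
  rcases eq_or_ne c 0 with rfl | h0
  · rw [map_zero]; exact u.nonneg π
  obtain ⟨m, hm⟩ := h.val c h0
  rw [hm, map_zpow₀] at hc ⊢
  have h1 := (zpow_lt_one_iff_right_of_lt_one₀ (u.pos h.ne) h.lt).1 hc
  exact (zpow_le_zpow_right_of_le_one₀ (u.pos h.ne) h.lt.le h1).trans_eq (zpow_one _)

theorem Un.par (h : Un u π) (hc : c ≠ 0) :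
    ∃ d : k, d ≠ 0 ∧ (u c = u (d ^ 2) ∨ u c = u (d ^ 2 * π)) := by
  obtain ⟨m, hm⟩ := h.val c hc
  refine ⟨π ^ (m / 2), zpow_ne_zero _ h.ne, ?_⟩
  rw [← zpow_natCast, ← zpow_mul, ← zpow_add_one₀ h.ne, hm]
  rcases Int.emod_two_eq_zero_or_one m with h1 | h1
  · exact Or.inl (by congr 2; push_cast; omega)
  · exact Or.inr (by congr 2; push_cast; omega)

theorem Un.sv (h : Un (rs k w) π) (hs : Sv w (algebraMap k l π)) (c : k) :
    Sv w (algebraMap k l c) := by
  rcases eq_or_ne c 0 with rfl | hc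
  · rw [map_zero]; exact sv_zero w
  obtain ⟨d, -, h1 | h1⟩ := h.par hc
  · exact (sv_sq w (algebraMap k l d)).congr (by rw [← map_pow]; exact h1)
  · exact ((sv_sq w (algebraMap k l d)).mul hs).congr (by rw [← map_pow, ← map_mul]; exact h1)

end

variable (k) in
/-- The elements `1` and `y` are orthogonal. -/
def Mx (w : Place l) (y : l) : Prop := y ≠ 0 ∧ ∀ a b : k,
  w.abv (algebraMap k l a + algebraMap k l b * y) = max (rs k w a) (rs k w b * w.abv y)

theorem add_max (w : Place l) {x y : l} (h : w.abv x ≠ w.abv y) :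
    w.abv (x + y) = max (w.abv x) (w.abv y) := by
  rcases lt_or_gt_of_ne h with h | h
  · rw [add_comm, Sp.add_eq_left w h, max_eq_right h.le]
  · rw [Sp.add_eq_left w h, max_eq_left h.le]

theorem mx_of (h0 : y ≠ 0) (h : ∀ c : k, rs k w c = w.abv y → w.abv y ≤ w.abv (algebraMap k l c - y)) :
    Mx k w y := ⟨h0, fun a b => by
  rcases eq_or_ne b 0 with rfl | hb
  · simp [rs_apply]
  have hb' := (rs k w).pos hb
  rw [rs_apply, rs_apply, ← map_mul]
  by_cases h1 : w.abv (algebraMap k l a) = w.abv (algebraMap k l b * y)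
  · refine le_antisymm (w.nonarch _ _) ?_
    have h2 := h (-a / b) (by
      rw [map_div₀, (rs k w).map_neg, div_eq_iff hb'.ne', mul_comm, rs_apply, h1, map_mul]; rfl)
    rw [h1, max_self, show algebraMap k l a + algebraMap k l b * y =
      -(algebraMap k l b * (algebraMap k l (-a / b) - y)) by
        rw [mul_sub, ← map_mul, mul_div_cancel₀ _ hb, map_neg]; ring, w.abv.map_neg, map_mul, map_mul]
    exact mul_le_mul_of_nonneg_left h2 hb'.le
  · exact add_max w h1⟩

theorem dep4 (h3 : finrank k l = 3) (u : AbsoluteValue k ℝ) (a : Fin 4 → l) : ∃ c : Fin 4 → k,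
    algebraMap k l (c 0) * a 0 + algebraMap k l (c 1) * a 1 + algebraMap k l (c 2) * a 2 +
      algebraMap k l (c 3) * a 3 = 0 ∧ (∀ i, u (c i) ≤ 1) ∧ ∃ i, c i = 1 := by
  have : Module.Finite k l := Module.finite_of_finrank_pos (by omega)
  have h1 : ¬LinearIndependent k a := fun h => by
    have h2 := h.fintype_card_le_finrank
    rw [h3, Fintype.card_fin] at h2
    omega
  obtain ⟨g, hg, j, hj⟩ := Fintype.not_linearIndependent_iff.1 h1
  obtain ⟨i, hi⟩ := Finite.exists_max fun i => u (g i)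
  have h2 : 0 < u (g i) := (u.pos hj).trans_le (hi j)
  have h4 : g i ≠ 0 := u.pos_iff.1 h2
  refine ⟨fun j => g j / g i, ?_, fun j => ?_, i, div_self h4⟩
  · simp only [Fin.sum_univ_four, Algebra.smul_def] at hg
    simp only [map_div₀]
    linear_combination (algebraMap k l (g i))⁻¹ * hg
  · rw [map_div₀]
    exact div_le_one_of_le₀ (hi j) h2.le

theorem Mx.zero (h : Mx k w y) {a b : k} (e : algebraMap k l a + algebraMap k l b * y = 0) :
    a = 0 ∧ b = 0 := by
  have h1 := h.2 a b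
  rw [e, map_zero] at h1
  have h2 := (le_max_left _ _).trans h1.ge
  have h3 := (le_max_right _ _).trans h1.ge
  exact ⟨by_contra fun h4 => ((rs k w).pos h4).not_ge h2,
    by_contra fun h4 => (mul_pos ((rs k w).pos h4) (w.abv.pos h.1)).not_ge h3⟩

theorem tower (h3 : finrank k l = 3) (hk : ∀ c : k, Sv w (algebraMap k l c)) (hy : Sv w y)
    (h : Mx k w y) : False := by
  obtain ⟨z, hz⟩ := ex_odd w
  obtain ⟨c, hc, -, i, hi⟩ := dep4 h3 (rs k w) ![1, y, z, y * z]
  have h1 : ∀ a b : k, Sv w (algebraMap k l a + algebraMap k l b * y) := fun a b => by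
    rcases max_choice (rs k w a) (rs k w b * w.abv y) with h2 | h2
    · exact (hk a).congr ((h.2 a b).trans h2)
    · exact ((hk b).mul hy).congr
        (((h.2 a b).trans h2).trans (map_mul w.abv (algebraMap k l b) y).symm)
  have h2 : (algebraMap k l (c 2) + algebraMap k l (c 3) * y) * z =
      -(algebraMap k l (c 0) + algebraMap k l (c 1) * y) := by
    simp only [Matrix.cons_val] at hc
    linear_combination hc
  have h4 : algebraMap k l (c 2) + algebraMap k l (c 3) * y = 0 := by_contra fun h4 =>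
    hz (((h1 (c 0) (c 1)).congr (by rw [h2, w.abv.map_neg])).of_mul (h1 _ _) h4)
  rw [h4, zero_mul, eq_comm, neg_eq_zero] at h2
  have h5 := h.zero h2
  have h6 := h.zero h4
  have h7 : c i = 0 := by
    fin_cases i
    exacts [h5.1, h5.2, h6.1, h6.2]
  exact one_ne_zero (hi.symm.trans h7)

theorem half (h : Mx k w y) {a b c d : k} {s s' z : l} (hc : rs k w c ≤ 1) (hd : rs k w d ≤ 1)
    (e : s * (algebraMap k l a + algebraMap k l b * y) +
      s' * (algebraMap k l c + algebraMap k l d * z) = 0) (h1 : s + s' = 1)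
    (h2 : w.abv s' < min 1 (w.abv y) / max 1 (w.abv z)) : a ≠ 1 ∧ b ≠ 1 := by
  have h3 : (0 : ℝ) < max 1 (w.abv z) := lt_max_of_lt_left one_pos
  rw [lt_div_iff₀ h3] at h2
  have h4 : w.abv s = 1 := eq_one_of_near w (by
    rw [show s - 1 = -s' by linear_combination h1, w.abv.map_neg]
    exact ((le_mul_of_one_le_right (w.abv.nonneg _) (le_max_left _ _)).trans_lt h2).trans_le
      (min_le_left _ _))
  have h5 : w.abv (algebraMap k l c + algebraMap k l d * z) ≤ max 1 (w.abv z) :=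
    (w.nonarch _ _).trans (max_le_max hc (by
      rw [map_mul]
      exact mul_le_of_le_one_left (w.abv.nonneg _) hd))
  have h6 := congrArg w.abv (eq_neg_of_add_eq_zero_left e)
  rw [w.abv.map_neg, map_mul, map_mul, h4, one_mul, h.2] at h6
  have h7 := (h6.trans_le (mul_le_mul_of_nonneg_left h5 (w.abv.nonneg _))).trans_lt h2
  refine ⟨?_, ?_⟩ <;> rintro rfl <;> rw [map_one] at h7
  · exact ((le_max_left _ _).trans_lt h7).not_ge (min_le_left _ _)
  · exact ((le_max_right _ _).trans_lt h7).not_ge ((min_le_right _ _).trans (one_mul _).ge)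

theorem two (h3 : finrank k l = 3) (e : (rs k w').IsEquiv (rs k w)) (h : Mx k w y)
    (h' : Mx k w' y') : w' = w := by
  by_contra hne
  have hp : ∀ {w : Place l} {y : l} (z : l), Mx k w y → 0 < min 1 (w.abv y) / max 1 (w.abv z) :=
    fun z h => div_pos (lt_min one_pos (AbsoluteValue.pos _ h.1)) (lt_max_of_lt_left one_pos)
  obtain ⟨s, hs⟩ := approx_fam (w := ![w, w']) (fun i j => by
      fin_cases i <;> fin_cases j <;> simp [hne, Ne.symm hne]) ![1, 0]
    ![min 1 (w.abv y) / max 1 (w.abv y'), min 1 (w'.abv y') / max 1 (w'.abv y)]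
    (Fin.forall_fin_two.2 ⟨hp _ h, hp _ h'⟩)
  obtain ⟨c, hc, h1, i, hi⟩ := dep4 h3 (rs k w) ![s, s * y, 1 - s, (1 - s) * y']
  simp only [Matrix.cons_val] at hc
  have h4 : w.abv (s - 1) < _ := hs 0
  have h5 : w'.abv (s - 0) < _ := hs 1
  rw [w.abv.map_sub] at h4
  rw [sub_zero] at h5
  have h6 := half (a := c 0) (b := c 1) (s := s) h (h1 2) (h1 3) (by linear_combination hc)
    (by ring) h4
  have h7 := half (a := c 2) (b := c 3) (s := 1 - s) h' (e.le_one_iff.2 (h1 0))
    (e.le_one_iff.2 (h1 1)) (by linear_combination hc) (by ring) h5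
  fin_cases i
  exacts [h6.1 hi, h6.2 hi, h7.1 hi, h7.2 hi]

theorem mx_odd (hk : ∀ c : k, Sv w (algebraMap k l c)) : ∃ y, Mx k w y := by
  obtain ⟨y, hy⟩ := ex_odd w
  exact ⟨y, mx_of (fun h => hy (h ▸ sv_zero w)) fun c hc => absurd ((hk c).congr hc.symm) hy⟩

/-- The residue degrees are one. -/
theorem res_one (h3 : finrank k l = 3) (e : (rs k w').IsEquiv (rs k w))
    (hk : ∀ c : k, Sv w (algebraMap k l c)) (hy : w'.abv y ≤ 1) :
    ∃ c : k, w'.abv (algebraMap k l c - y) < 1 := by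
  by_contra hc
  push Not at hc
  have h1 : w'.abv y = 1 := le_antisymm hy (by simpa using hc 0)
  have h2 : Mx k w' y := mx_of (fun h => by simp [h] at h1) fun c _ => h1.trans_le (hc c)
  obtain ⟨z, hz⟩ := mx_odd hk
  obtain rfl := two h3 e hz h2
  exact tower h3 hk ⟨1, by simp [h1]⟩ h2

end Vale.Agent.P011UF6
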