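import Vale.Agent.P011UF.IF
import Vale.Agent.P011UZ2.Apx
import Vale.Agent.P011.H271.KSF

/-!
Quadratic polynomials without roots in a completion.
-/

open Filter Topology

namespace Vale.Agent.P011UF6

open Vale.Agent.P011.H738 (Place integers maxIdeal)
open Vale.Agent.P011.H271 (norm_alg dense_alg qq one_lt_qq one_lt_qq' qq_pos exists_eq_zpow)
open Vale.Agent.P011.H73 (Sp.add_eq_left)
open Vale.Agent.P011.H73.Sp (sub_lt sub_le)
open Vale.Agent.P011UF

section normed

variable {L : Type} [NormedField L] {t n : L}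

/-- The polynomial has no root. -/
def NoR (t n : L) : Prop := ∀ x : L, x ^ 2 - t * x + n ≠ 0

theorem NoR.low [CompleteSpace L] (h : NoR t n) : ∃ η > 0, ∀ x : L, η ≤ ‖x ^ 2 - t * x + n‖ := by
  by_contra hc
  push Not at hc
  have step : ∀ (m : ℕ) (y : L), ‖y ^ 2 - t * y + n‖ < (1 / 4) ^ m → ∃ z : L,
      ‖z ^ 2 - t * z + n‖ < (1 / 4) ^ (m + 1) ∧ dist y z ≤ 2 * (1 / 2) ^ m := fun m y hy => by
    obtain ⟨x, hx⟩ := hc ((1 / 4) ^ (m + 1)) (by positivity)
    have h1 : ‖y - x‖ * ‖y - (t - x)‖ ≤ ‖y ^ 2 - t * y + n‖ + ‖x ^ 2 - t * x + n‖ := by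
      rw [← norm_mul]
      exact (congrArg norm (by ring)).trans_le (norm_sub_le _ _)
    have h2 : ((1 : ℝ) / 4) ^ m = (1 / 2) ^ m * (1 / 2) ^ m := by rw [← mul_pow]; norm_num
    have h3 : (0 : ℝ) < (1 / 2) ^ m := by positivity
    by_cases h4 : ‖y - x‖ ≤ 2 * (1 / 2) ^ m
    · exact ⟨x, hx, by rwa [dist_eq_norm]⟩
    · refine ⟨t - x, (congrArg norm (by ring)).trans_lt hx, ?_⟩
      rw [dist_eq_norm]
      rw [pow_succ (1 / 4 : ℝ)] at hx
      by_contra h5
      have h6 := mul_lt_mul'' (not_le.1 h4) (not_le.1 h5) (by positivity) (by positivity)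
      nlinarith
  choose g hg using step
  obtain ⟨x0, h0⟩ := hc ((1 / 4) ^ 0) (by positivity)
  let u : (m : ℕ) → {y : L // ‖y ^ 2 - t * y + n‖ < (1 / 4) ^ m} := fun m =>
    Nat.rec ⟨x0, h0⟩ (fun m y => ⟨g m y.1 y.2, (hg m y.1 y.2).1⟩) m
  obtain ⟨z, hz⟩ := cauchySeq_tendsto_of_complete (cauchySeq_of_le_geometric (1 / 2) 2
    (by norm_num) (f := fun m => (u m).1) fun m => (hg m (u m).1 (u m).2).2)
  have h1 : Tendsto (fun m => ‖(u m).1 ^ 2 - t * (u m).1 + n‖) atTop (𝓝 ‖z ^ 2 - t * z + n‖) :=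
    (((hz.pow 2).sub (hz.const_mul t)).add_const n).norm
  exact h z (norm_le_zero_iff.1 (le_of_tendsto_of_tendsto' h1
    (tendsto_pow_atTop_nhds_zero_of_lt_one (by norm_num) (by norm_num)) fun m => (u m).2.le))

/-- The condition is open. -/
theorem NoR.opn [CompleteSpace L] (h : NoR t n) :
    ∃ δ > 0, ∀ t' n' : L, ‖t' - t‖ < δ → ‖n' - n‖ < δ → NoR t' n' := by
  obtain ⟨η, h0, h1⟩ := h.low
  have hM : 0 < ‖t‖ + ‖n‖ + 4 := by positivity
  refine ⟨min 1 (η / (‖t‖ + ‖n‖ + 4)), lt_min one_pos (by positivity), fun t' n' ht hn x hx => ?_⟩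
  obtain ⟨h2, h3⟩ := lt_min_iff.1 ht
  obtain ⟨h4, h5⟩ := lt_min_iff.1 hn
  rw [lt_div_iff₀ hM] at h3 h5
  have h6 : ‖t'‖ ≤ ‖t‖ + 1 := by linarith [norm_le_insert' t' t]
  have h7 : ‖n'‖ ≤ ‖n‖ + 1 := by linarith [norm_le_insert' n' n]
  have h8 : ‖x‖ ^ 2 ≤ ‖t'‖ * ‖x‖ + ‖n'‖ := by
    rw [← norm_pow, ← norm_mul, show x ^ 2 = t' * x - n' by linear_combination hx]
    exact norm_sub_le _ _
  have h9 : ‖x‖ ≤ ‖t‖ + ‖n‖ + 3 := by
    by_contra h10
    nlinarith [norm_nonneg t, norm_nonneg n, norm_nonneg x]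
  have h10 := h1 x
  rw [show x ^ 2 - t * x + n = (t' - t) * x - (n' - n) by linear_combination hx] at h10
  have h11 := h10.trans (norm_sub_le _ _)
  rw [norm_mul] at h11
  nlinarith [norm_nonneg (t' - t), norm_nonneg (n' - n), norm_nonneg t, norm_nonneg n,
    mul_le_mul_of_nonneg_left h9 (norm_nonneg (t' - t))]

end normed

variable {l : Type} [Field l] {w : Place l} {t n t' n' y z : l}

theorem ine_open (h : Ine w t n) : ∃ δ > 0, ∀ t' n' : l, w.abv (t' - t) < δ → w.abv (n' - n) < δ →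
    Ine w t' n' := by
  obtain ⟨δ, h0, h1⟩ := NoR.opn (L := w.comp) h
  exact ⟨δ, h0, fun t' n' ht hn => h1 _ _ (by rwa [← map_sub, norm_alg])
    (by rwa [← map_sub, norm_alg])⟩

theorem val_comp (w : Place l) (x : w.comp) : ∃ y : l, w.abv y = ‖x‖ := by
  rcases eq_or_ne x 0 with rfl | hx
  · exact ⟨0, by rw [map_zero, norm_zero]⟩
  obtain ⟨y, hy⟩ := dense_alg w x (norm_pos_iff.2 hx)
  refine ⟨y, ?_⟩
  rw [← norm_alg, show algebraMap l w.comp y = x + -(x - algebraMap l w.comp y) by ring,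
    IsUltrametricDist.norm_add_eq_max_of_norm_ne_norm (by rw [norm_neg]; exact hy.ne'), norm_neg,
    max_eq_left hy.le]

/-- The absolute value is the square of an absolute value. -/
def Sv (w : Place l) (y : l) : Prop := ∃ c : l, w.abv y = w.abv c ^ 2

theorem Sv.mul (h : Sv w y) (h' : Sv w z) : Sv w (y * z) := by
  obtain ⟨c, hc⟩ := h
  obtain ⟨d, hd⟩ := h'
  exact ⟨c * d, by rw [map_mul, map_mul, hc, hd, mul_pow]⟩

theorem Sv.of_mul (h : Sv w (y * z)) (h' : Sv w y) (hy : y ≠ 0) : Sv w z := by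
  obtain ⟨c, hc⟩ := h
  obtain ⟨d, hd⟩ := h'
  refine ⟨c / d, ?_⟩
  rw [map_div₀, div_pow, ← hc, ← hd, map_mul, mul_div_cancel_left₀ _ (w.abv.ne_zero hy)]

theorem Sv.congr (h : Sv w y) (e : w.abv z = w.abv y) : Sv w z := h.imp fun _ hc => e.trans hc

theorem sv_sq (w : Place l) (y : l) : Sv w (y ^ 2) := ⟨y, map_pow _ _ _⟩

theorem sv_zero (w : Place l) : Sv w 0 := ⟨0, by simp⟩

theorem ex_odd (w : Place l) : ∃ y, ¬Sv w y := by
  obtain ⟨y, hy⟩ := w.normalized.2.1
  refine ⟨y, fun ⟨c, hc⟩ => ?_⟩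
  have h1 : (qq w : ℝ) = w.abv c ^ 2 := hy.symm.trans hc
  have h2 : c ≠ 0 := by
    rintro rfl
    rw [map_zero] at h1
    linarith [qq_pos w]
  obtain ⟨m, hm⟩ := exists_eq_zpow w h2
  rw [hm, ← zpow_natCast, ← zpow_mul] at h1
  have h3 := zpow_right_injective₀ (qq_pos w) (one_lt_qq' w).ne' ((zpow_one _).trans h1)
  push_cast at h3
  omega

theorem ine_E (ht : w.abv t ^ 2 < w.abv n) (hn : ¬Sv w n) : Ine w t n := fun x hx => by
  obtain ⟨y, hy⟩ := val_comp w x
  have h1 : ‖x ^ 2‖ ≠ ‖algebraMap l w.comp n‖ := fun h =>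
    hn ⟨y, by rw [hy, ← norm_pow, h, norm_alg]⟩
  have h2 := IsUltrametricDist.norm_add_eq_max_of_norm_ne_norm h1
  rw [show x ^ 2 + algebraMap l w.comp n = algebraMap l w.comp t * x by linear_combination hx,
    norm_mul, norm_alg, norm_alg, norm_pow] at h2
  have h3 := (le_max_left _ _).trans h2.ge
  have h4 := (le_max_right _ _).trans h2.ge
  nlinarith [w.abv.nonneg t, norm_nonneg x, sq_nonneg (w.abv t - ‖x‖)]

theorem ine_U (h : Unr w t n) : Ine w t n := fun x hx => by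
  obtain ⟨ht, hn, h⟩ := h
  rw [← norm_alg] at ht hn
  have h1 : ‖x‖ ≤ 1 := by
    by_contra h1
    have h2 := IsUltrametricDist.norm_add_le_max (algebraMap l w.comp t * x)
      (-algebraMap l w.comp n)
    rw [show algebraMap l w.comp t * x + -algebraMap l w.comp n = x ^ 2 by
      linear_combination -hx, norm_pow, norm_mul, norm_neg, le_max_iff] at h2
    rcases h2 with h2 | h2 <;> nlinarith [norm_nonneg (algebraMap l w.comp t)]
  obtain ⟨y, hy⟩ := dense_alg w x one_pos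
  have h2 : ‖algebraMap l w.comp y‖ ≤ 1 := by
    rw [show algebraMap l w.comp y = x + -(x - algebraMap l w.comp y) by ring]
    exact (IsUltrametricDist.norm_add_le_max _ _).trans (max_le h1 (by rw [norm_neg]; exact hy.le))
  have h3 := h y (by rwa [← norm_alg])
  have h4 : ‖algebraMap l w.comp t + -(algebraMap l w.comp y + x)‖ ≤ 1 :=
    (IsUltrametricDist.norm_add_le_max _ _).trans (max_le ht (by
      rw [norm_neg]
      exact (IsUltrametricDist.norm_add_le_max _ _).trans (max_le h2 h1)))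
  rw [← norm_alg, map_add, map_sub, map_mul, map_pow, show algebraMap l w.comp y ^ 2 -
    algebraMap l w.comp t * algebraMap l w.comp y + algebraMap l w.comp n =
    (x - algebraMap l w.comp y) * (algebraMap l w.comp t + -(algebraMap l w.comp y + x)) by
      linear_combination hx, norm_mul] at h3
  nlinarith [norm_nonneg (x - algebraMap l w.comp y)]

theorem ine_shift (h : Ine w y (-y)) : Ine w (2 + y) 1 := fun x hx => h (x - 1) (by
  rw [map_add, map_one, map_ofNat] at hx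
  rw [map_neg]
  linear_combination hx)

theorem ine_scale (h : Ine w t n) (hy : y ≠ 0) : Ine w (y * t) (y ^ 2 * n) := fun x hx => by
  have h1 : algebraMap l w.comp y ≠ 0 := (map_ne_zero _).2 hy
  refine h (x / algebraMap l w.comp y) ?_
  rw [map_mul, map_mul, map_pow] at hx
  field_simp
  linear_combination hx

theorem Unr.near (h : Unr w t n) (ht : w.abv (t' - t) < 1) (hn : w.abv (n' - n) < 1) :
    Unr w t' n' := by
  refine ⟨?_, ?_, fun x hx => ?_⟩
  · rw [show t' = t + (t' - t) by ring]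
    exact (w.nonarch _ _).trans (max_le h.1 ht.le)
  · rw [show n' = n + (n' - n) by ring]
    exact (w.nonarch _ _).trans (max_le h.2.1 hn.le)
  · rw [show x ^ 2 - t' * x + n' = x ^ 2 - t * x + n + (n' - n - (t' - t) * x) by ring,
      Sp.add_eq_left, h.2.2 x hx]
    rw [h.2.2 x hx]
    refine sub_lt w hn ?_
    rw [map_mul]
    exact mul_lt_one_of_nonneg_of_lt_one_left (w.abv.nonneg _) ht hx

theorem ex_unr (hn : w.abv n = 1) : ∃ t, Unr w t n := by
  have := w.normalized.1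
  have h0 : n ≠ 0 := fun h => by rw [h, map_zero] at hn; exact zero_ne_one hn
  let I := maxIdeal w.abv w.nonarch
  let a : integers w.abv w.nonarch := ⟨n, hn.le⟩
  let b : integers w.abv w.nonarch := ⟨n⁻¹, show w.abv n⁻¹ ≤ 1 by rw [map_inv₀, hn, inv_one]⟩
  have hab : Ideal.Quotient.mk I a * Ideal.Quotient.mk I b = 1 := by
    rw [← map_mul, show a * b = 1 from Subtype.ext (mul_inv_cancel₀ h0), map_one]
  have key : ∃ s : integers w.abv w.nonarch ⧸ I, ∀ x, x ^ 2 - s * x + Ideal.Quotient.mk I a ≠ 0 := by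
    by_contra hc
    push Not at hc
    choose g hg using hc
    have h1 : Function.Injective g := fun s s' e => by
      have h2 := hg s'
      rw [← e] at h2
      linear_combination (s - s') * Ideal.Quotient.mk I b * hg s -
        (s - g s) * Ideal.Quotient.mk I b * (hg s - h2) - (s - s') * hab
    obtain ⟨s, hs⟩ := Finite.injective_iff_surjective.1 h1 0
    have h2 := hg s
    rw [hs] at h2
    have h3 : Ideal.Quotient.mk I a = 0 := by linear_combination h2
    exact (hn.symm.trans_lt (Ideal.Quotient.eq_zero_iff_mem.1 h3)).false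
  obtain ⟨s, hs⟩ := key
  obtain ⟨s, rfl⟩ := Ideal.Quotient.mk_surjective s
  refine ⟨s, s.2, hn.le, fun x hx => ?_⟩
  let c : integers w.abv w.nonarch := ⟨x, hx⟩
  have h1 : w.abv ((c ^ 2 - s * c + a : integers w.abv w.nonarch) : l) ≤ 1 := (c ^ 2 - s * c + a).2
  refine le_antisymm h1 (not_lt.1 fun h => hs (Ideal.Quotient.mk I c) ?_)
  rw [← map_pow, ← map_mul, ← map_sub, ← map_add]
  exact Ideal.Quotient.eq_zero_iff_mem.2 h

end Vale.Agent.P011UF6
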