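import Vale.Agent.P011UF6.Cls

/-!
The good polynomials of a cubic extension.
-/

open Module Filter Topology

namespace Vale.Agent.P011UF6

open Vale.Agent.P011L (Glob)
open Vale.Agent.P011.H738 (Place)
open Vale.Agent.P011.H271 (norm_alg)
open Vale.Agent.P011UF
open Vale.Agent.P011UZ2 (ab ab_nt real_eq fin_real)

variable {k l : Type} [Field k] [Field l] [Algebra k l] {t n x : k}

theorem ex_small {u : AbsoluteValue k ℝ} (h : u.IsNontrivial) {ε : ℝ} (hε : 0 < ε) :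
    ∃ c : k, c ≠ 0 ∧ u c < ε := by
  obtain ⟨b, h0, h1⟩ := h.exists_abv_lt_one
  obtain ⟨m, hm⟩ := exists_pow_lt_of_lt_one hε h1
  exact ⟨b ^ m, pow_ne_zero _ h0, by rwa [map_pow]⟩

section

variable {ι : Type} [Finite ι] {u : ι → AbsoluteValue k ℝ} (h : ∀ i, (u i).IsNontrivial)
  (hu : Pairwise fun i j => ¬(u i).IsEquiv (u j))
include h hu

theorem wa0 (y : ι → k) {ε : ℝ} (hε : 0 < ε) : ∃ a : k, ∀ i, u i (a - y i) < ε := by
  have := Fintype.ofFinite ι
  obtain ⟨a, ha⟩ := (AbsoluteValue.denseRange_algebraMap_pi h hu).exists_dist_lt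
    (fun i => WithAbs.toAbs (u i) (y i)) hε
  refine ⟨a, fun i => ?_⟩
  have h1 := (dist_le_pi_dist (fun i => WithAbs.toAbs (u i) (y i)) _ i).trans_lt ha
  rw [dist_comm, dist_eq_norm] at h1
  exact h1

theorem wa1 [Infinite k] (y : ι → k) {ε : ℝ} (hε : 0 < ε) {Z : Set k} (hZ : Z.Finite) :
    ∃ a ∉ Z, ∀ i, u i (a - y i) < ε := by
  classical
  rcases isEmpty_or_nonempty ι with hι | ⟨⟨j⟩⟩
  · obtain ⟨a, ha⟩ := hZ.exists_notMem
    exact ⟨a, ha, fun i => (hι.false i).elim⟩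
  obtain ⟨a, ha⟩ := wa0 h hu y (half_pos hε)
  obtain ⟨b, h0, hb⟩ := ex_small (h j) (half_pos (lt_min one_pos (half_pos hε)))
  obtain ⟨c, hc⟩ := wa0 h hu (Pi.single j b) ((u j).pos h0)
  have h1 : c ≠ 0 := fun e => by
    have h1 := hc j
    rw [e, zero_sub, (u j).map_neg, Pi.single_eq_same] at h1
    exact h1.false
  have h2 : ∀ i, u i c < min 1 (ε / 2) := fun i => by
    have h2 := hc i
    rcases eq_or_ne i j with rfl | hi
    · rw [Pi.single_eq_same] at h2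
      have h3 := (u i).add_le (c - b) b
      rw [sub_add_cancel] at h3
      linarith
    · rw [Pi.single_eq_of_ne hi, sub_zero] at h2
      linarith [(u j).nonneg b]
  have h3 : Function.Injective fun m : ℕ => a + c ^ (m + 1) := fun m m' e => by
    have h3 := congrArg (u j) (add_left_cancel e)
    rw [map_pow, map_pow] at h3
    exact Nat.succ_injective (pow_right_injective₀ ((u j).pos h1)
      ((h2 j).trans_le (min_le_left _ _)).ne h3)
  obtain ⟨_, ⟨m, rfl⟩, h4⟩ := (Set.infinite_range_of_injective h3).exists_notMem_finite hZ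
  refine ⟨_, h4, fun i => ?_⟩
  have h5 := (u i).add_le (a - y i) (c ^ (m + 1))
  have h6 : u i c ^ (m + 1) ≤ u i c :=
    pow_le_of_le_one ((u i).nonneg c) ((h2 i).le.trans (min_le_left _ _)) m.succ_ne_zero
  rw [map_pow] at h5
  rw [show a + c ^ (m + 1) - y i = a - y i + c ^ (m + 1) by ring]
  linarith [ha i, (h2 i).trans_le (min_le_right _ _)]

end

/-- The restrictions are pairwise inequivalent. -/
def Pw (k : Type) [Field k] [Algebra k l] (T : Finset (Place l)) : Prop :=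
  ∀ v ∈ T, ∀ w ∈ T, (rs k v).IsEquiv (rs k w) → v = w

theorem wa [Infinite k] [Finite (k →+* ℝ)] {T : Finset (Place l)} (hT : Pw k T) (y : Place l → k)
    (z : k) {ε : ℝ} (hε : 0 < ε) {Z : Set k} (hZ : Z.Finite) :
    ∃ a ∉ Z, (∀ v ∈ T, rs k v (a - y v) < ε) ∧ ∀ φ : k →+* ℝ, ‖φ (a - z)‖ < ε := by
  have h1 : ∀ (v : Place l) (φ : k →+* ℝ), ¬(rs k v).IsEquiv (ab (.inr φ)) := fun v φ h => by
    have h2 : rs k v 2 ≤ 1 := by
      rw [rs_apply, map_ofNat, ← one_add_one_eq_two]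
      exact (v.nonarch 1 1).trans (by simp)
    have h3 : |φ 2| ≤ 1 := h.le_one_iff.1 h2
    rw [map_ofNat] at h3
    norm_num at h3
  obtain ⟨a, h2, h3⟩ := wa1 (ι := T ⊕ (k →+* ℝ))
    (u := Sum.elim (fun v => rs k v.1) fun φ => ab (.inr φ))
    (Sum.forall.2 ⟨fun v => rs_nt v.1, fun φ => ab_nt (.inr φ)⟩) (by
      rintro (v | φ) (w | ψ) hne e
      exacts [hne (congrArg _ (Subtype.ext (hT _ v.2 _ w.2 e))), h1 _ _ e, h1 _ _ e.symm,
        hne (congrArg _ (real_eq e))]) (Sum.elim (fun v => y v.1) fun _ => z) hε hZ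
  exact ⟨a, h2, fun v hv => h3 (.inl ⟨v, hv⟩), fun φ => h3 (.inr φ)⟩

theorem reps (B : Finset (Place l)) {A : Finset (Place l)} (hA : Pw k A) :
    ∃ T, A ⊆ T ∧ Pw k T ∧ ∀ w ∈ B, ∃ v ∈ T, (rs k w).IsEquiv (rs k v) := by
  classical
  induction B using Finset.induction_on with
  | empty => exact ⟨A, le_rfl, hA, fun _ h => absurd h (Finset.notMem_empty _)⟩
  | insert w B _ ih =>
    obtain ⟨T, h1, h2, h3⟩ := ih
    by_cases h : ∃ v ∈ T, (rs k w).IsEquiv (rs k v)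
    · exact ⟨T, h1, h2, Finset.forall_mem_insert _ _ _ |>.2 ⟨h, h3⟩⟩
    · refine ⟨insert w T, h1.trans (Finset.subset_insert _ _), fun v hv v' hv' e => ?_,
        Finset.forall_mem_insert _ _ _ |>.2 ⟨⟨w, Finset.mem_insert_self _ _, .rfl⟩, fun u hu =>
          (h3 u hu).imp fun v h4 => ⟨Finset.mem_insert_of_mem h4.1, h4.2⟩⟩⟩
      rcases Finset.mem_insert.1 hv with rfl | h4 <;> rcases Finset.mem_insert.1 hv' with rfl | h5
      exacts [rfl, absurd ⟨_, h5, e⟩ h, absurd ⟨_, h4, e.symm⟩ h, h2 _ h4 _ h5 e]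

theorem opn_mul {L : Type} [NormedField L] [CompleteSpace L] (f : k →+* L)
    (h : NoR (f t) (f (x * n))) : ∃ δ > 0, ∀ t' n' : k, ‖f (t' - t)‖ < δ → ‖f (n' - n)‖ < δ →
      NoR (f t') (f (x * n')) := by
  obtain ⟨δ, h0, h1⟩ := h.opn
  have h2 : 0 < ‖f x‖ + 1 := by positivity
  refine ⟨δ / (‖f x‖ + 1), by positivity, fun t' n' ht hn => h1 _ _ ?_ ?_⟩ <;>
    rw [lt_div_iff₀ h2] at ht hn
  · rw [← map_sub]
    nlinarith [norm_nonneg (f x), norm_nonneg (f (t' - t))]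
  · rw [← map_sub, ← mul_sub, map_mul, norm_mul]
    nlinarith [norm_nonneg (f (n' - n))]

omit [Field k] in
theorem ev_of {P : k → k → Prop} {a b : k → ℝ} (h : ∃ δ > 0, ∀ s r, a s < δ → b r < δ → P s r) :
    ∀ᶠ δ in 𝓝[>] (0 : ℝ), ∀ s r, a s < δ → b r < δ → P s r := by
  obtain ⟨δ, h0, h1⟩ := h
  filter_upwards [Ioo_mem_nhdsGT h0] with η hη s r hs hr using h1 s r (hs.trans hη.2) (hr.trans hη.2)

theorem lg_open [Infinite k] (B : Finset (Place l)) {v : Place l} (h : LG v t (x * n)) :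
    ∀ᶠ δ in 𝓝[>] (0 : ℝ), ∀ w ∈ B, ∀ t' n' : k, rs k v (t' - t) < δ → rs k v (n' - n) < δ →
      (rs k w).IsEquiv (rs k v) → Ine w (algebraMap k l t') (algebraMap k l (x * n')) := by
  refine (eventually_all_finset B).2 fun w _ => ev_of ?_
  by_cases e : (rs k w).IsEquiv (rs k v)
  · obtain ⟨δ, h0, h1⟩ := opn_mul ((algebraMap l w.comp).comp (algebraMap k l)) (h w e)
    obtain ⟨c, h2, h3⟩ := ex_small (rs_nt (k := k) w) h0
    exact ⟨rs k v c, (rs k v).pos h2, fun t' n' ht hn _ => h1 t' n'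
      ((norm_alg w _).trans_lt ((e.lt_iff_lt.2 ht).trans h3))
      ((norm_alg w _).trans_lt ((e.lt_iff_lt.2 hn).trans h3))⟩
  · exact ⟨1, one_pos, fun _ _ _ _ e' => absurd e' e⟩

theorem re_open [Finite (k →+* ℝ)] (x : k) : ∀ᶠ δ in 𝓝[>] (0 : ℝ), ∀ φ : k →+* ℝ, ∀ t' n' : k,
    ‖φ (t' - 0)‖ < δ → ‖φ (n' - 1)‖ < δ → 0 < φ x → NoR (φ t') (φ (x * n')) := by
  refine eventually_all.2 fun φ => ev_of ?_
  by_cases h : 0 < φ x
  · obtain ⟨δ, h0, h1⟩ := opn_mul φ (t := 0) (x := x) (n := 1) fun y => by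
      rw [map_zero, mul_one]
      nlinarith [sq_nonneg y]
    exact ⟨δ, h0, fun t' n' ht hn _ => h1 t' n' ht hn⟩
  · exact ⟨1, one_pos, fun _ _ _ _ e' => absurd e' h⟩

theorem bad_fin (c : k) : {t : k | t = 0 ∨ t ^ 2 = c}.Finite := by
  by_cases h : ∃ s : k, s ^ 2 = c
  · obtain ⟨s, rfl⟩ := h
    refine (Set.toFinite {0, s, -s}).subset fun t ht => ?_
    exact ht.imp_right fun h => sq_eq_sq_iff_eq_or_eq_neg.1 h
  · exact (Set.finite_singleton 0).subset fun t ht => ht.resolve_right fun h1 => h ⟨t, h1⟩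

/-- **Gluing.** -/
theorem glue [Infinite k] [Finite (k →+* ℝ)] {B T : Finset (Place l)} {R : Set (l →+* ℝ)}
    (hx : ∀ φ ∈ R, 0 < φ (algebraMap k l x)) (hT : Pw k T)
    (hB : ∀ w ∈ B, ∃ v ∈ T, (rs k w).IsEquiv (rs k v)) {t1 t2 n : Place l → k}
    (h1 : ∀ v, LG v (t1 v) (n v)) (h2 : ∀ v, LG v (t2 v) (x * n v)) {ε : ℝ} (hε : 0 < ε) :
    ∃ a1 a2 b : k, b ≠ 0 ∧ Good k B R a1 b ∧ Good k B R a2 (x * b) ∧
      ∀ v ∈ T, rs k v (a1 - t1 v) < ε ∧ rs k v (b - n v) < ε := by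
  obtain ⟨δ, ⟨⟨k1, k2⟩, k3, k4⟩, k5, k6⟩ := (((((eventually_all_finset T).2 fun v _ =>
    lg_open B (x := (1 : k)) ((one_mul (n v)).symm ▸ h1 v)).and ((eventually_all_finset T).2 fun v _ =>
      lg_open B (h2 v))).and ((re_open (1 : k)).and (re_open x))).and
        (Ioo_mem_nhdsGT hε)).exists
  obtain ⟨b, b0, b1, b2⟩ := wa hT n 1 k5 (Set.finite_singleton 0)
  obtain ⟨a1, c0, c1, c2⟩ := wa hT t1 0 k5 (bad_fin (4 * b))
  obtain ⟨a2, d0, d1, d2⟩ := wa hT t2 0 k5 (bad_fin (4 * (x * b)))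
  refine ⟨a1, a2, b, b0, ⟨fun h => c0 (.inl h), fun h => c0 (.inr h), fun w hw => ?_,
    fun φ _ => ?_⟩, ⟨fun h => d0 (.inl h), fun h => d0 (.inr h), fun w hw => ?_, fun φ hφ => ?_⟩,
    fun v hv => ⟨(c1 v hv).trans k6, (b1 v hv).trans k6⟩⟩
  · obtain ⟨v, hv, e⟩ := hB w hw
    have h3 := k1 v hv w hw a1 b (c1 v hv) (b1 v hv) e
    rwa [one_mul] at h3
  · have h3 := k3 (φ.comp (algebraMap k l)) a1 b (c2 _) (b2 _) (by simp)
    rwa [one_mul] at h3
  · obtain ⟨v, hv, e⟩ := hB w hw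
    exact k2 v hv w hw a2 b (d1 v hv) (b1 v hv) e
  · exact k4 (φ.comp (algebraMap k l)) a2 b (d2 _) (b2 _) (hx φ hφ)

theorem inf_of (h : Glob k) : Infinite k := by
  rcases h with h | ⟨F, _, _, _, -⟩
  · exact .of_injective _ (Nat.cast_injective (R := k))
  · have : Infinite (RatFunc F) := .of_injective _ (RatFunc.algebraMap_injective F)
    exact .of_injective _ (algebraMap (RatFunc F) k).injective

theorem pair (hG : Glob k) (h3 : finrank k l = 3) (B : Finset (Place l)) {R : Set (l →+* ℝ)}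
    (h0 : x ≠ 0) (hx : ∀ φ ∈ R, 0 < φ (algebraMap k l x)) :
    ∃ a1 a2 b : k, b ≠ 0 ∧ Good k B R a1 b ∧ Good k B R a2 (x * b) := by
  have := inf_of hG
  have := fin_real hG
  obtain ⟨T, -, h1, h2⟩ := reps (k := k) B (A := ∅) fun _ h => absurd h (Finset.notMem_empty _)
  choose t1 t2 n h4 h5 using loc h3 h0
  obtain ⟨a1, a2, b, h6, h7, h8, -⟩ := glue hx h1 h2 h4 h5 one_pos
  exact ⟨a1, a2, b, h6, h7, h8⟩

/-- **The constant terms of the good polynomials generate the positive elements.** -/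
theorem gd2 : GD2 := fun k l _ _ _ hG h3 B R => by
  refine ⟨?_, fun x hx => ?_⟩
  · obtain ⟨a, -, b, -, h, -⟩ := pair (R := R) hG h3 B one_ne_zero fun φ _ => by simp
    exact ⟨a, b, h⟩
  · obtain ⟨a1, a2, b, h0, h1, h2⟩ := pair hG h3 B x.ne_zero hx
    rw [show x = x * Units.mk0 b h0 * (Units.mk0 b h0)⁻¹ from (mul_inv_cancel_right _ _).symm]
    exact mul_mem (Subgroup.subset_closure ⟨a2, h2⟩) (inv_mem (Subgroup.subset_closure ⟨a1, h1⟩))

theorem near (hG : Glob k) (h3 : finrank k l = 3) (B : Finset (Place l)) (R : Set (l →+* ℝ))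
    {w : Place l} (h : LG w t n) {ε : ℝ} (hε : 0 < ε) :
    ∃ a b : k, Good k B R a b ∧ rs k w (a - t) < ε ∧ rs k w (b - n) < ε := by
  classical
  have := inf_of hG
  have := fin_real hG
  obtain ⟨T, h0, h1, h2⟩ := reps (k := k) B (A := {w}) fun v hv v' hv' _ =>
    (Finset.mem_singleton.1 hv).trans (Finset.mem_singleton.1 hv').symm
  choose t1 t2 m h4 h5 using loc h3 (one_ne_zero (α := k))
  have h6 : ∀ v, LG v (Function.update t1 w t v) (Function.update m w n v) := fun v => by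
    rcases eq_or_ne v w with rfl | hv
    · rwa [Function.update_self, Function.update_self]
    · rw [Function.update_of_ne hv, Function.update_of_ne hv]
      exact h4 v
  obtain ⟨a, -, b, -, h7, -, h8⟩ := glue (x := 1) (R := R) (fun φ _ => by simp) h1 h2 h6
    (fun v => by rw [one_mul]; exact h6 v) hε
  have h9 := h8 w (h0 (Finset.mem_singleton_self w))
  rw [Function.update_self, Function.update_self] at h9
  exact ⟨a, b, h7, h9⟩

/-- **Good polynomials with a prescribed behaviour at one place.** -/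
theorem gd1 : GD1 := fun k l _ _ _ hG h3 B R w _ => by
  have := inf_of hG
  obtain ⟨π, h⟩ := ex_un (k := k) w
  by_cases ho : ∀ v, (rs k v).IsEquiv (rs k w) → ¬Sv v (algebraMap k l π)
  · obtain ⟨a, b, h1, -, h2⟩ := near hG h3 B R
      (lg_odd h ho (n := π) one_ne_zero (by rw [one_pow, one_mul])) ((rs k w).pos h.ne)
    refine .inl ⟨a, b, h1, fun c hc => ho w .rfl ⟨c, Eq.trans ?_ hc⟩⟩
    rw [rs_apply, rs_apply, map_sub] at h2
    rw [← P011.H73.Sp.add_eq_left w h2, add_sub_cancel]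
  · push Not at ho
    obtain ⟨v, e, hs⟩ := ho
    refine .inr ⟨(ex_unr (w := w) (n := 1) (map_one _)).imp fun t ht => ⟨1, ht⟩, fun t n hu => ?_⟩
    obtain ⟨t', n', h1, h2, h4⟩ := lg_near h3 (h.tr e) hs e.symm hu
    obtain ⟨a, b, h5, h6, h7⟩ := near hG h3 B R (h4.tr e.symm) one_pos
    rw [rs_apply, map_sub] at h6 h7
    refine ⟨a, b, h5, ?_, ?_⟩
    · rw [← sub_add_sub_cancel _ (algebraMap k l t')]
      exact (w.nonarch _ _).trans_lt (max_lt h6 h1)
    · rw [← sub_add_sub_cancel _ (algebraMap k l n')]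
      exact (w.nonarch _ _).trans_lt (max_lt h7 h2)

end Vale.Agent.P011UF6
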